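import Vale.Agent.P022D.As.Defs
import Vale.Agent.P022F.PA.Defs
import Vale.Agent.P022F.Core.Defs

namespace Vale.Agent.P022F.As
export Vale.Agent.P022D.As (
  Dis CD Sb DG COV Fib HD DANN END DS GRP BASE DGD DGEN DTOR)
end Vale.Agent.P022F.As

namespace Vale.Agent.P022F.As.DG
export Vale.Agent.P022D.As.DG (
  sb0 dis0 mk soc dis sb fib)
end Vale.Agent.P022F.As.DG

namespace Vale.Agent.P022F.As.HD
export Vale.Agent.P022D.As.HD (
  cyc pi0 fib q ex qran pi comb qinj grp piC unr new big dis sb iJ ses mk rel disC flat sb0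
  relC nil free dis0 desc ig)
end Vale.Agent.P022F.As.HD

namespace Vale.Agent.P022F.As.CD
export Vale.Agent.P022D.As.CD (
  tq y2 D x rel τl Pt y xv kill w m Dl Loc mk c f dq Out)
end Vale.Agent.P022F.As.CD

namespace Vale.Agent.P022F.As.CD.Pt
export Vale.Agent.P022D.As.CD.Pt (
  xC xm xd xD xy mk xt)
end Vale.Agent.P022F.As.CD.Pt

namespace Vale.Agent.P022F.As.CD.Loc
export Vale.Agent.P022D.As.CD.Loc (
  len ch0 mk tr)
end Vale.Agent.P022F.As.CD.Loc
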